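import Vale.Agent.P277Z.Fin.Cls

/-!
# P277: termination of flips for generalized lc pairs on compact Kähler fourfolds
-/

open Vale.Agent.P277 Vale.Agent.P277Z.St

namespace Vale.Agent.Results.P277.AFlips

theorem result (X Z : ℕ → CSp) (f : ∀ i, (X i).pt → (Z i).pt)
    (f' : ∀ i, (X (i + 1)).pt → (Z i).pt) (s : ℕ) (Q : ∀ i, Fin s → Set (X i).pt)
    (G : GP (X 0) (Q 0)) (conn : ConnectedSpace (X 0).pt) (normal : ∀ i, IsNormal 4 (X i))
    (kahler : ∀ i, Kah (X i)) (prime : ∀ i t, IsPrime (X i) (Q i t))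
    (distinct : ∀ i, Function.Injective (Q i)) (glc : G.Glc) :
    ¬ ∀ i, Flip (X i) (Z i) (X (i + 1)) (f i) (f' i) (Q i) (Q (i + 1)) G.d :=
  P277Z.Fn.top P277Z.Fn.glc X Z f f' s Q G conn normal kahler prime distinct glc

end Vale.Agent.Results.P277.AFlips
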